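import Vale.Agent.P281.H969.TL.Spec
import Vale.Agent.P281.H303.UD.Spec

/-!
# P281, project T-UL (helper511): mixed Gauss maps (closed 1-forms of coverings of the fibres, and
logarithmic derivatives of units), statements of the blocks

`X` compact Kähler, `f : X → Y`, `𝒟` a finite set of prime divisors with coefficient `1` in `Δ`. The
forms on the fibres are the products of `d` forms `η + ∑ c_j dlog U_j`, `η` a closed holomorphic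
1-form of a finite étale covering of the fibre, `U_j` a unit with divisor `∑ a j D D`. The map
`(β, log U)` to `V × ℂ^q` is treated as a map to a torus, with the constant periods `ℤ[i]^q` on the
second factor: only the changes of the periods of `V` occur, and all estimates are those of T-UD.
-/

open Set Filter Metric MeasureTheory Vale.Agent.P281 Vale.Agent.P281.H713
open Vale.Agent.P272.K (Chart IsKahler IsHermitian)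
open Vale.Agent.P281.MF Vale.Agent.P281.ISO Vale.Agent.P281.ELL Vale.Agent.P281.H713.TZ
open Vale.Agent.P281.H64
open Vale.Agent.P281.H64.Thin (IsThinSet)
open Vale.Agent.P281.H64.Gen (IsSmallSet NoExc ExcOne)
open Vale.Agent.P281.H64.TU (Tame KTame HasFormsT RankAt RelFormT)
open Vale.Agent.P281.H303.UD (IsPolz)
open Vale.Agent.P281.H969.TL (IsUnitAt IsUnitOn IsUnitF)

open scoped Topology ContDiff Manifold ComplexConjugate ComplexOrder ENNReal NNReal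

noncomputable section

namespace Vale.Agent.P281.H511.UL

/-! ### PX: the product of a polarized torus with the constant torus `(ℂ / ℤ[i])^q` -/

section PX

variable (V : Type) [NormedAddCommGroup V] [InnerProductSpace ℂ V] [FiniteDimensional ℂ V]

/-- `V × ℂ^q`, with the product inner product. -/
abbrev Vx (q : ℕ) : Type := WithLp 2 (V × EuclideanSpace ℂ (Fin q))

variable {V}

/-- `(v, c)` -/
def mkx {q : ℕ} (v : V) (c : EuclideanSpace ℂ (Fin q)) : Vx V q :=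
  WithLp.toLp 2 (v, c)

/-- `(v, c) ↦ (G v, c)` -/
def IsProdG {q : ℕ} (G : V ≃L[ℂ] V) (G' : Vx V q ≃L[ℂ] Vx V q) : Prop :=
  ∀ v c, G' (mkx v c) = mkx (G v) c

end PX

/-- **PX** (linear algebra). -/
def ExtStmt : Prop :=
  ∀ (n q : ℕ) (V : Type) [NormedAddCommGroup V] [InnerProductSpace ℂ V] [FiniteDimensional ℂ V]
    (Q : (Fin n → ℝ) → (Fin n → ℝ) → ℝ),
    ∃ (Q' : (Fin (n + 2 * q) → ℝ) → (Fin (n + 2 * q) → ℝ) → ℝ)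
      (ext : ((Fin n → ℝ) ≃L[ℝ] V) → ((Fin (n + 2 * q) → ℝ) ≃L[ℝ] Vx V q))
      (extG : (V ≃L[ℂ] V) → (Vx V q ≃L[ℂ] Vx V q)),
      (∀ G, IsProdG G (extG G)) ∧
      (∀ x, ∃ (x₁ : Fin n → ℝ) (c : EuclideanSpace ℂ (Fin q)), ∀ P, ext P x = mkx (P x₁) c) ∧
      (∀ P G, IsPolz Q P G → IsPolz Q' (ext P) (extG G)) ∧
      (∀ P P' G, IsPeriodChange Q P P' G → IsPeriodChange Q' (ext P) (ext P') (extG G)) ∧
      ∀ P G G', IsPolz Q P G → IsPolz Q' (ext P) G' → ∀ v, ‖G' v‖ = ‖extG G v‖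

/-! ### The families -/

section Fam

variable (E E' : Type) [NormedAddCommGroup E] [NormedSpace ℂ E]
  [NormedAddCommGroup E'] [NormedSpace ℂ E']
variable {X Y : Type} [TopologicalSpace X] [ChartedSpace E X]
  [TopologicalSpace Y] [ChartedSpace E' Y]
variable {V : Type} [NormedAddCommGroup V] [InnerProductSpace ℂ V] [FiniteDimensional ℂ V]

/-- `TE.IsAlbM` without nondegeneracy. (`V = 0` is possible.) -/
structure IsAlb0 {n : ℕ} (d : ℕ) (T : Tame (Fin d → ℂ) X) (f : X → Y) (S : Set Y)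
    (Q : (Fin n → ℝ) → (Fin n → ℝ) → ℝ) {ι : Type} (U : ι → Set Y)
    (π : ι → Y → ((Fin n → ℝ) ≃L[ℝ] V)) (L : ι → X → (X → V) → Prop) : Prop
    extends IsPeriodFamily E' S Q U π where
  coord : ∀ x, f x ∉ S → ∃ ζ : X → (Fin d → ℂ), IsFibreCoord E E' f ζ x
  mem : ∀ a x β, L a x β → f x ∈ U a
  lift : ∀ a x, f x ∈ U a → ∃ β : X → V, L a x β
  liftHol : ∀ a x β, L a x β → ContMDiffAt 𝓘(ℂ, E) 𝓘(ℂ, V) ω β x
  near : ∀ a x β, L a x β → ∀ᶠ z in 𝓝 x, L a z β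
  full : ∀ a x β, L a x β → ∀ l : V →L[ℂ] ℂ,
    (∀ᶠ z in 𝓝 x, f z = f x → l (β z) = l (β x)) → l = 0
  bound : ∀ r K : ℝ, 0 < r → 0 < K → ∃ A : ℝ, ∀ (a : ι) (q : (Fin d → ℂ) → X) (v₀ : Fin d → ℂ),
    IsPolydisc E f q v₀ r → T K q v₀ r → f (q v₀) ∈ U a → ∃ h : (Fin d → ℂ) → V,
    DifferentiableOn ℂ h (ball v₀ r) ∧
    (∃ β : X → V, L a (q v₀) β ∧ ∀ᶠ v in 𝓝 v₀, β (q v) = h v) ∧
    ∀ G : V ≃L[ℂ] V, IsPolz Q (π a (f (q v₀))) G →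
      ∀ v ∈ ball v₀ (r / 2), ‖fderiv ℂ (fun u => G (h u)) v‖ ≤ A
  change : ∀ a b x, f x ∈ U a → f x ∈ U b → ∀ β β' : X → V, L a x β → L b x β' →
    ∃ (G : V ≃L[ℂ] V) (c : V), IsPeriodChange Q (π a (f x)) (π b (f x)) G ∧
      ∀ᶠ z in 𝓝 x, f z = f x → β' z = G (β z) + c

/-- A family of manifolds with maps to tori, with logarithmic poles along the divisors of `𝒟`. -/
structure IsUL {n : ℕ} (d : ℕ) (T : Tame (Fin d → ℂ) X) (f : X → Y) (S : Set Y)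
    (Q : (Fin n → ℝ) → (Fin n → ℝ) → ℝ) {ι : Type} (U : ι → Set Y)
    (π : ι → Y → ((Fin n → ℝ) ≃L[ℝ] V)) (𝒟 : Finset (Set X)) (L : ι → X → (X → V) → Prop) : Prop
    extends IsPeriodFamily E' S Q U π where
  coord : ∀ x, f x ∉ S → ∃ ζ : X → (Fin d → ℂ), IsFibreCoord E E' f ζ x
  thin : ∀ D ∈ 𝒟, ∀ x, f x ∉ S → ∃ᶠ z in 𝓝 x, f z = f x ∧ z ∉ D
  mem : ∀ a x β, L a x β → f x ∈ U a ∧ ∀ D ∈ 𝒟, x ∉ D
  lift : ∀ a x, f x ∈ U a → (∀ D ∈ 𝒟, x ∉ D) → ∃ β : X → V, L a x β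
  liftHol : ∀ a x β, L a x β → ContMDiffAt 𝓘(ℂ, E) 𝓘(ℂ, V) ω β x
  near : ∀ a x β, L a x β → ∀ᶠ z in 𝓝 x, L a z β
  logs : ∀ a x, f x ∈ U a → ∀ e : Set X → X → ℂ, (∀ D ∈ 𝒟, IsLocalEq E D (e D) x) →
    ∃ (γ : X → V) (c : Set X → V), ContMDiffAt 𝓘(ℂ, E) 𝓘(ℂ, V) ω γ x ∧
      ∀ᶠ z in 𝓝 x, (∀ D ∈ 𝒟, z ∉ D) → ∃ (β : X → V) (ℓ : Set X → X → ℂ), L a z β ∧
        (∀ D ∈ 𝒟, ContMDiffAt 𝓘(ℂ, E) 𝓘(ℂ, ℂ) ω (ℓ D) z ∧
          ∀ᶠ t in 𝓝 z, Complex.exp (ℓ D t) = e D t) ∧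
        ∀ᶠ t in 𝓝 z, f t = f z → β t = γ t + ∑ D ∈ 𝒟, ℓ D t • c D
  bound : ∀ r K : ℝ, 0 < r → 0 < K → ∃ A : ℝ, ∀ (a : ι) (q : (Fin d → ℂ) → X) (v₀ : Fin d → ℂ),
    IsPolydisc E f q v₀ r → T K q v₀ r → f (q v₀) ∈ U a →
    (∀ v ∈ ball v₀ r, ∀ D ∈ 𝒟, q v ∉ D) → ∃ h : (Fin d → ℂ) → V,
    DifferentiableOn ℂ h (ball v₀ r) ∧
    (∃ β : X → V, L a (q v₀) β ∧ ∀ᶠ v in 𝓝 v₀, β (q v) = h v) ∧
    ∀ G : V ≃L[ℂ] V, IsPolz Q (π a (f (q v₀))) G →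
      ∀ v ∈ ball v₀ (r / 2), ‖fderiv ℂ (fun u => G (h u)) v‖ ≤ A
  change : ∀ a b x (β β' : X → V), L a x β → L b x β' →
    ∃ (G : V ≃L[ℂ] V) (c : V), IsPeriodChange Q (π a (f x)) (π b (f x)) G ∧
      ∀ᶠ z in 𝓝 x, f z = f x → β' z = G (β z) + c

/-- The Gauss map of the fibre over `y` has rank at least `r` at some point, and its image generates
`V`. -/
def RankUL {d : ℕ} (f : X → Y) {ι : Type} (U : ι → Set Y) (L : ι → X → (X → V) → Prop)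
    (r : ℕ) (y : Y) : Prop :=
  ∃ a, y ∈ U a ∧ ∃ (q : (Fin d → ℂ) → X) (v₀ : Fin d → ℂ),
    ContMDiffAt 𝓘(ℂ, Fin d → ℂ) 𝓘(ℂ, E) ω q v₀ ∧ (∀ᶠ v in 𝓝 v₀, f (q v) = y) ∧
    (∃ β, L a (q v₀) β) ∧ ∀ β, L a (q v₀) β → (∃ m, RankAt r (fun v => β (q v)) v₀ m) ∧
      ∀ l : V →L[ℂ] ℂ, (∀ᶠ v in 𝓝 v₀, l (β (q v)) = l (β (q v₀))) → l = 0

/-- The coefficient of the product of the `d` forms `m b ∘ h + ∑_j c b j dlog u_j`. -/
def xcoef {d q : ℕ} (m : Fin d → (V →L[ℂ] ℂ)) (c : Fin d → Fin q → ℂ) (h : (Fin d → ℂ) → V)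
    (u : Fin q → (Fin d → ℂ) → ℂ) (v : Fin d → ℂ) : ℂ :=
  (Matrix.of fun b k => m b (fderiv ℂ h v (Pi.single k 1)) +
    ∑ j, c b j * (fderiv ℂ (u j) v (Pi.single k 1) / u j v)).det

/-- The mixed Gauss map of `h`, `log u` has rank at least `r` at `v`. -/
def XRankAt {d q : ℕ} (r : ℕ) (h : (Fin d → ℂ) → V) (u : Fin q → (Fin d → ℂ) → ℂ)
    (v : Fin d → ℂ) : Prop :=
  ∃ (m : Fin (r + 1) → Fin d → (V →L[ℂ] ℂ)) (c : Fin (r + 1) → Fin d → Fin q → ℂ),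
    xcoef (m 0) (c 0) h u v ≠ 0 ∧ Function.Surjective fun (ξ : Fin d → ℂ) (k : Fin r) =>
      fderiv ℂ (fun w => xcoef (m k.succ) (c k.succ) h u w / xcoef (m 0) (c 0) h u w) v ξ

/-- The mixed Gauss map of the fibre over `y` (lifts `L`, units with divisors `∑ a j D D`) has rank at
least `r` at some point. -/
def XRank (d : ℕ) {q : ℕ} (f : X → Y) {ι : Type} (U : ι → Set Y)
    (L : ι → X → (X → V) → Prop) (𝒟 : Finset (Set X)) (a : Fin q → Set X → ℤ) (r : ℕ) (y : Y) :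
    Prop :=
  ∃ i, y ∈ U i ∧ ∃ W : Fin q → X → ℂ, (∀ j, IsUnitAt E f 𝒟 (a j) y (W j)) ∧
    ∃ (s : (Fin d → ℂ) → X) (v₀ : Fin d → ℂ),
      ContMDiffAt 𝓘(ℂ, Fin d → ℂ) 𝓘(ℂ, E) ω s v₀ ∧ (∀ᶠ v in 𝓝 v₀, f (s v) = y) ∧
      (∀ D ∈ 𝒟, s v₀ ∉ D) ∧ ∀ β, L i (s v₀) β →
        XRankAt r (fun v => β (s v)) (fun j v => W j (s v)) v₀

/-- Tame slices remain tame on smaller balls. -/
def TameMono {d : ℕ} (T : Tame (Fin d → ℂ) X) : Prop :=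
  ∀ (K : ℝ) (q : (Fin d → ℂ) → X) (v₀ v₁ : Fin d → ℂ) (r r' : ℝ), T K q v₀ r → 0 < r' →
    ball v₁ r' ⊆ ball v₀ r → T K q v₁ r'

/-- The closed holomorphic 1-forms of the finite coverings `F`, with at most `m` sheets, of the fibre
over `y` are the differentials of functionals of the lifts. -/
def HasForms1 (n p d m : ℕ) {X Y : Type} [TopologicalSpace X] [ChartedSpace (Cm n) X]
    [TopologicalSpace Y] [ChartedSpace (Cm p) Y] (f : X → Y) {ι : Type} (U : ι → Set Y)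
    (L : ι → X → (X → V) → Prop) (y : Y) : Prop :=
  ∀ (F : Type) [TopologicalSpace F] [T2Space F] [ChartedSpace (Cm d) F] (i : F → X),
    H511.Surf.IsFibre (Cm n) (Cm d) f y i → (∀ x, (i ⁻¹' {x}).encard ≤ m) → ∀ a, y ∈ U a →
    ∀ t : F, ∃ β : X → V, L a (i t) β ∧ ∀ η : F → (Cm d →L[ℂ] ℂ),
      (∀ x', ∃ ψ : F → ℂ, J.HolAt (Cm d) ψ x' ∧ ∀ᶠ z in 𝓝 x', η z = J.dif (Cm d) ψ z) →
      ∃ l : V →L[ℂ] ℂ, ∀ᶠ z in 𝓝 t, η z = J.dif (Cm d) (fun s => l (β (i s))) z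

end Fam

/-! ### UF: the forms -/

/-- **LE** (logarithmic extension). `Θ` is a family of `N`-canonical forms on the fibres, holomorphic
off `𝒟`, and bounded on the slices `s` on which the `e D` are nonzero, with logarithmic derivatives
bounded by `1`; then `Θ` has poles of order at most `N` along the `D ∈ 𝒟`. (`MF.extendM_off` for
`c ∏ e_D^N`, where `Θ = c JP^N`; good points: points of one `D` only, `dif (e D) ≠ 0` on `ker df`;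
they are dense (`H969/Gen/Fin dense_diff`, `H495/TW/Loc sat`, `thin`); near a good point
`s v = R (y, e (1 + v_1 / 2), κ + ε v')`, `R` the inverse of `(f, e_D, κ)`.) -/
def LogExtStmt : Prop :=
  ∀ (d N : ℕ) (E E' : Type) [NormedAddCommGroup E] [NormedSpace ℂ E] [FiniteDimensional ℂ E]
    [NormedAddCommGroup E'] [NormedSpace ℂ E'] [FiniteDimensional ℂ E']
    (X Y : Type) [TopologicalSpace X] [ChartedSpace E X] [IsManifold 𝓘(ℂ, E) ω X]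
    [TopologicalSpace Y] [ChartedSpace E' Y] [IsManifold 𝓘(ℂ, E') ω Y]
    (f : X → Y) (S : Set Y) (e₀ : E ≃L[ℂ] (E' × (Fin d → ℂ))) (𝒟 : Finset (Set X)) (Θ : X → ℂ),
    0 < d → ContMDiff 𝓘(ℂ, E) 𝓘(ℂ, E') ω f → IsClosed S →
    (∀ x, f x ∉ S → ∃ ζ : X → (Fin d → ℂ), IsFibreCoord E E' f ζ x) →
    (∀ D ∈ 𝒟, IsPrimeDivisor E D) →
    (∀ D ∈ 𝒟, ∀ x, f x ∉ S → ∃ᶠ z in 𝓝 x, f z = f x ∧ z ∉ D) →
    (∀ x, f x ∉ S → (∀ D ∈ 𝒟, x ∉ D) → ∀ ζ : X → (Fin d → ℂ), IsFibreCoord E E' f ζ x →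
      ∃ c : X → ℂ, HolV E c x ∧ ∀ᶠ z in 𝓝 x, Θ z = c z * JP e₀ (dM E E' f z) (dV E ζ z) ^ N) →
    (∀ x, f x ∉ S → ∀ e : Set X → X → ℂ, (∀ D ∈ 𝒟, IsLocalEq E D (e D) x) →
      ∃ C : ℝ, ∃ W ∈ 𝓝 x, ∀ s : (Fin d → ℂ) → X,
        (∀ v ∈ ball (0 : Fin d → ℂ) 1, ContMDiffAt 𝓘(ℂ, Fin d → ℂ) 𝓘(ℂ, E) ω s v ∧ s v ∈ W ∧
          f (s v) = f (s 0) ∧ ∀ D ∈ 𝒟, s v ∉ D ∧
            ‖fderiv ℂ (fun u => e D (s u)) v‖ ≤ ‖e D (s v)‖) →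
        ∀ P : E →L[ℂ] (Fin d → ℂ),
        P.comp (mfderiv 𝓘(ℂ, Fin d → ℂ) 𝓘(ℂ, E) s 0 : (Fin d → ℂ) →L[ℂ] E) =
          ContinuousLinearMap.id ℂ (Fin d → ℂ) →
        ‖Θ (s 0)‖ ≤ C * ‖JP e₀ (dM E E' f (s 0)) P ^ N‖) →
    ∀ x, f x ∉ S → ∀ ζ : X → (Fin d → ℂ), IsFibreCoord E E' f ζ x →
      ∀ e : Set X → X → ℂ, (∀ D ∈ 𝒟, IsLocalEq E D (e D) x) →
      ∃ c : X → ℂ, HolV E c x ∧ ∀ᶠ z in 𝓝 x, (∀ D ∈ 𝒟, z ∉ D) →
        Θ z * ∏ D ∈ 𝒟, e D z ^ N = c z * JP e₀ (dM E E' f z) (dV E ζ z) ^ N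

/-- **UF** (helper511). -/
def HasULStmt : Prop :=
  ∀ (d r n : ℕ) (E E' : Type) [NormedAddCommGroup E] [NormedSpace ℂ E] [FiniteDimensional ℂ E]
    [NormedAddCommGroup E'] [NormedSpace ℂ E'] [FiniteDimensional ℂ E']
    (X Y : Type) [TopologicalSpace X] [ChartedSpace E X] [IsManifold 𝓘(ℂ, E) ω X]
    [TopologicalSpace Y] [ChartedSpace E' Y] [IsManifold 𝓘(ℂ, E') ω Y]
    (V : Type) [NormedAddCommGroup V] [InnerProductSpace ℂ V] [FiniteDimensional ℂ V]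
    (T : Tame (Fin d → ℂ) X) (f : X → Y) (S : Set Y)
    (Q : (Fin n → ℝ) → (Fin n → ℝ) → ℝ) (ι : Type) (U : ι → Set Y)
    (π : ι → Y → ((Fin n → ℝ) ≃L[ℝ] V)) (𝒟 : Finset (Set X)) (L : ι → X → (X → V) → Prop)
    (e₀ : E ≃L[ℂ] (E' × (Fin d → ℂ))) (Δ : Set X → ℝ), 0 < d →
    ContMDiff 𝓘(ℂ, E) 𝓘(ℂ, E') ω f → IsClosed S → IsUL E E' d T f S Q U π 𝒟 L →
    (∀ D ∈ 𝒟, IsPrimeDivisor E D) → (∀ D, 0 ≤ Δ D) → (∀ D ∈ 𝒟, Δ D = 1) → ∀ y ∉ S,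
    RankUL E (d := d) f U L r y → HasFormsT T f S e₀ Δ r y

section Blocks

/-- **MX**: the mixed family, and its rank (a minimal set of units `J ⊆ Fin q` such that the
`(β, log U_j)_(j ∈ J)` generate the same forms on the fibre over `y`; `ExtStmt`; index set
`ι × {y // y ∉ S}`; `helper165: exists_log_ball`). -/
def MixStmt : Prop :=
  ∀ (p d n g q r : ℕ) (X Y : Type) [TopologicalSpace X] [T2Space X] [ChartedSpace (Cm (p + d)) X]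
    [IsManifold 𝓘(ℂ, Cm (p + d)) ω X] [TopologicalSpace Y] [T2Space Y] [ChartedSpace (Cm p) Y]
    [IsManifold 𝓘(ℂ, Cm p) ω Y] (T : Tame (Cm d) X) (f : X → Y) (S : Set Y)
    (Q : (Fin n → ℝ) → (Fin n → ℝ) → ℝ) (ι : Type) (U : ι → Set Y)
    (π : ι → Y → ((Fin n → ℝ) ≃L[ℝ] EuclideanSpace ℂ (Fin g)))
    (L : ι → X → (X → EuclideanSpace ℂ (Fin g)) → Prop)
    (𝒟 : Finset (Set X)) (a : Fin q → Set X → ℤ)
    (e₀ : Cm (p + d) ≃L[ℂ] (Cm p × Cm d)) (Δ : Set X → ℝ), 0 < d → TameMono T →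
    ContMDiff 𝓘(ℂ, Cm (p + d)) 𝓘(ℂ, Cm p) ω f → IsClosed S →
    IsProperFibration (n := p + d) (p := p) f S → IsAlb0 (Cm (p + d)) (Cm p) d T f S Q U π L →
    (∀ D ∈ 𝒟, J.IsPrime (Cm (p + d)) D) → (∀ D ∈ 𝒟, ∀ y ∉ S, ¬ f ⁻¹' {y} ⊆ D) →
    (∀ D, 0 ≤ Δ D) → (∀ D ∈ 𝒟, Δ D = 1) →
    (∀ j, ∀ y₀ ∉ S, ∃ (W : Set Y) (u : X → ℂ), IsOpen W ∧ y₀ ∈ W ∧
      IsUnitOn (Cm (p + d)) f 𝒟 (a j) W u) →
    (∀ j, ∀ ρ K : ℝ, 0 < ρ → 0 < K → ∃ B : ℝ, ∀ (y : Y) (u : X → ℂ), y ∉ S →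
      IsUnitAt (Cm (p + d)) f 𝒟 (a j) y u → ∀ (s : Cm d → X) (v₀ : Cm d),
      IsPolydisc (Cm (p + d)) f s v₀ ρ → T K s v₀ ρ → f (s v₀) = y →
      (∀ v ∈ ball v₀ ρ, ∀ D ∈ 𝒟, s v ∉ D) →
      ‖fderiv ℂ (fun v => u (s v)) v₀‖ ≤ B * ‖u (s v₀)‖) →
    ∀ y ∉ S, XRank (Cm (p + d)) d f U L 𝒟 a r y → HasFormsT T f S e₀ Δ r y

/-- **OX**: `XRank` is an open condition. (Units are unique up to constants; for families the mixed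
minors are holomorphic in `(y, v)`.) -/
def XOpenStmt : Prop :=
  ∀ (p d n g q r : ℕ) (X Y : Type) [TopologicalSpace X] [T2Space X] [ChartedSpace (Cm (p + d)) X]
    [IsManifold 𝓘(ℂ, Cm (p + d)) ω X] [TopologicalSpace Y] [T2Space Y] [ChartedSpace (Cm p) Y]
    [IsManifold 𝓘(ℂ, Cm p) ω Y] (T : Tame (Cm d) X) (f : X → Y) (S : Set Y)
    (Q : (Fin n → ℝ) → (Fin n → ℝ) → ℝ) (ι : Type) (U : ι → Set Y)
    (π : ι → Y → ((Fin n → ℝ) ≃L[ℝ] EuclideanSpace ℂ (Fin g)))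
    (L : ι → X → (X → EuclideanSpace ℂ (Fin g)) → Prop)
    (𝒟 : Finset (Set X)) (a : Fin q → Set X → ℤ), 0 < d →
    ContMDiff 𝓘(ℂ, Cm (p + d)) 𝓘(ℂ, Cm p) ω f → IsClosed S →
    IsProperFibration (n := p + d) (p := p) f S → IsAlb0 (Cm (p + d)) (Cm p) d T f S Q U π L →
    (∀ D ∈ 𝒟, J.IsPrime (Cm (p + d)) D) → (∀ D ∈ 𝒟, ∀ y ∉ S, ¬ f ⁻¹' {y} ⊆ D) →
    (∀ j, ∀ y₀ ∉ S, ∃ (W : Set Y) (u : X → ℂ), IsOpen W ∧ y₀ ∈ W ∧
      IsUnitOn (Cm (p + d)) f 𝒟 (a j) W u) →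
    ∀ y ∉ S, XRank (Cm (p + d)) d f U L 𝒟 a r y →
      ∀ᶠ y' in 𝓝 y, XRank (Cm (p + d)) d f U L 𝒟 a r y'

/-- **A0**: the Albanese data of the coverings given by `core Γ m`, without nondegeneracy
(`H603/TE/AlbE dglobE`, `full` from the basis, `HasForms1` as in `H603/TE/FibE`). -/
def Alb0Stmt : Prop :=
  ∀ (p d m : ℕ) (Z Y : Type) [TopologicalSpace Z] [T2Space Z] [ChartedSpace (Cm (p + d)) Z]
    [IsManifold 𝓘(ℂ, Cm (p + d)) ω Z] [TopologicalSpace Y] [T2Space Y] [ChartedSpace (Cm p) Y]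
    [IsManifold 𝓘(ℂ, Cm p) ω Y] (f : Z → Y) (S : Set Y)
    (w : Chart (p + d) Z → Cm (p + d) → Matrix (Fin (p + d)) (Fin (p + d)) ℂ), 0 < d →
    ContMDiff 𝓘(ℂ, Cm (p + d)) 𝓘(ℂ, Cm p) ω f → IsClosed S →
    IsProperFibration (n := p + d) (p := p) f S → IsPreconnected Sᶜ → IsKahler w → Sᶜ.Nonempty →
    ∃ (g n : ℕ) (Q : (Fin n → ℝ) → (Fin n → ℝ) → ℝ) (ι : Type) (U : ι → Set Y)
      (π : ι → Y → ((Fin n → ℝ) ≃L[ℝ] EuclideanSpace ℂ (Fin g)))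
      (L : ι → Z → (Z → EuclideanSpace ℂ (Fin g)) → Prop),
      IsAlb0 (Cm (p + d)) (Cm p) d (KTame w) f S Q U π L ∧
      ∀ y ∉ S, HasForms1 (p + d) p d m f U L y

end Blocks

/-! ### Fibres -/

section Fib

/-- The coefficient of the product of the forms `η b + ∑_j c b j dlog u_j` in the chart of `F` at
`x`. -/
def fcoef {d q : ℕ} {F : Type} [TopologicalSpace F] [ChartedSpace (Cm d) F] (u : Fin q → F → ℂ)
    (η : Fin d → F → (Cm d →L[ℂ] ℂ)) (c : Fin d → Fin q → ℂ) (x : F) (v : Cm d) : ℂ :=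
  (Matrix.of fun b k =>
    η b ((chartAt (Cm d) x).symm v)
      (mfderiv 𝓘(ℂ, Cm d) 𝓘(ℂ, Cm d) (chartAt (Cm d) x).symm v (Pi.single k 1)) +
    ∑ j, c b j * (fderiv ℂ (fun v => u j ((chartAt (Cm d) x).symm v)) v (Pi.single k 1) /
      u j ((chartAt (Cm d) x).symm v))).det

/-- The mixed Gauss map of `F` has rank at least `r` at some point: it is given by the products of `d`
forms `η + ∑_j c_j dlog u_j`, `η` a closed holomorphic 1-form of `F`, `u_j` a meromorphic function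
with divisor `∑ a j D (D|F)`. -/
def XGaussRank (n d : ℕ) {X F : Type} [TopologicalSpace X] [ChartedSpace (Cm n) X]
    [TopologicalSpace F] [ChartedSpace (Cm d) F] (i : F → X) (𝒟 : Finset (Set X)) {q : ℕ}
    (a : Fin q → Set X → ℤ) (r : ℕ) : Prop :=
  ∃ (u : Fin q → F → ℂ) (η : Fin (r + 1) → Fin d → F → (Cm d →L[ℂ] ℂ))
    (c : Fin (r + 1) → Fin d → Fin q → ℂ), (∀ j, IsUnitF n d i 𝒟 (a j) (u j)) ∧
    (∀ s b, ∀ x', ∃ ψ : F → ℂ, J.HolAt (Cm d) ψ x' ∧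
      ∀ᶠ z in 𝓝 x', η s b z = J.dif (Cm d) ψ z) ∧
    ∃ x : F, (∀ D ∈ 𝒟, i x ∉ D) ∧
      fcoef u (η 0) (c 0) x (chartAt (Cm d) x x) ≠ 0 ∧
      Function.Surjective fun (ξ : Cm d) (k : Fin r) =>
        fderiv ℂ (fun v => fcoef u (η k.succ) (c k.succ) x v / fcoef u (η 0) (c 0) x v)
          (chartAt (Cm d) x x) ξ

/-- **FX1**: a unit `u` of the covering `F` of the fibre, with at most `m` sheets, gives a unit of the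
fibre: the norm of `u`, to the power `m! / (number of sheets)`. -/
def UnitNormStmt : Prop :=
  ∀ (p d m : ℕ) (X Y F : Type) [TopologicalSpace X] [T2Space X] [ChartedSpace (Cm (p + d)) X]
    [IsManifold 𝓘(ℂ, Cm (p + d)) ω X] [TopologicalSpace Y] [T2Space Y] [ChartedSpace (Cm p) Y]
    [IsManifold 𝓘(ℂ, Cm p) ω Y] [TopologicalSpace F] [T2Space F] [ChartedSpace (Cm d) F]
    (f : X → Y) (S : Set Y) (𝒟 : Finset (Set X)) (a : Set X → ℤ) (i : F → X) (y : Y) (u : F → ℂ),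
    0 < d → ContMDiff 𝓘(ℂ, Cm (p + d)) 𝓘(ℂ, Cm p) ω f → IsClosed S →
    IsProperFibration (n := p + d) (p := p) f S →
    (∀ D ∈ 𝒟, J.IsPrime (Cm (p + d)) D) → (∀ D ∈ 𝒟, ∀ y ∉ S, ¬ f ⁻¹' {y} ⊆ D) → y ∉ S →
    H511.Surf.IsFibre (Cm (p + d)) (Cm d) f y i → (∀ x, (i ⁻¹' {x}).encard ≤ m) →
    IsUnitF (p + d) d i 𝒟 a u →
    ∃ W : X → ℂ, IsUnitAt (Cm (p + d)) f 𝒟 (fun D => (m.factorial : ℤ) * a D) y W ∧
      ∃ c : ℂ, c ≠ 0 ∧ ∀ t, (∀ D ∈ 𝒟, i t ∉ D) → W (i t) = c * u t ^ m.factorial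

/-- **FX2**: from the fibre to `XRank` (from the conclusion of FX1 and `HasForms1`). -/
def FibXStmt : Prop :=
  ∀ (p d n g q m r : ℕ) (X Y F : Type) [TopologicalSpace X] [T2Space X]
    [ChartedSpace (Cm (p + d)) X] [IsManifold 𝓘(ℂ, Cm (p + d)) ω X] [TopologicalSpace Y] [T2Space Y]
    [ChartedSpace (Cm p) Y] [IsManifold 𝓘(ℂ, Cm p) ω Y] [TopologicalSpace F] [T2Space F]
    [ChartedSpace (Cm d) F] (T : Tame (Cm d) X) (f : X → Y) (S : Set Y)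
    (Q : (Fin n → ℝ) → (Fin n → ℝ) → ℝ) (ι : Type) (U : ι → Set Y)
    (π : ι → Y → ((Fin n → ℝ) ≃L[ℝ] EuclideanSpace ℂ (Fin g)))
    (L : ι → X → (X → EuclideanSpace ℂ (Fin g)) → Prop)
    (𝒟 : Finset (Set X)) (a : Fin q → Set X → ℤ) (i : F → X) (y : Y), 0 < d →
    ContMDiff 𝓘(ℂ, Cm (p + d)) 𝓘(ℂ, Cm p) ω f → IsClosed S →
    IsProperFibration (n := p + d) (p := p) f S → IsAlb0 (Cm (p + d)) (Cm p) d T f S Q U π L →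
    HasForms1 (p + d) p d m f U L y →
    (∀ D ∈ 𝒟, J.IsPrime (Cm (p + d)) D) → (∀ D ∈ 𝒟, ∀ y ∉ S, ¬ f ⁻¹' {y} ⊆ D) → y ∉ S →
    H511.Surf.IsFibre (Cm (p + d)) (Cm d) f y i → (∀ x, (i ⁻¹' {x}).encard ≤ m) →
    (∀ j (u : F → ℂ), IsUnitF (p + d) d i 𝒟 (a j) u → ∃ W : X → ℂ,
      IsUnitAt (Cm (p + d)) f 𝒟 (fun D => (m.factorial : ℤ) * a j D) y W ∧
      ∃ c : ℂ, c ≠ 0 ∧ ∀ t, (∀ D ∈ 𝒟, i t ∉ D) → W (i t) = c * u t ^ m.factorial) →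
    XGaussRank (p + d) d i 𝒟 a r →
    XRank (Cm (p + d)) d f U L 𝒟 (fun j D => (m.factorial : ℤ) * a j D) r y

end Fib

/-- **T-UL**, the goal. -/
def TULStmt : Prop :=
  ∀ (p d q m r : ℕ) (X Y : Type) [TopologicalSpace X] [ChartedSpace (Cm (p + d)) X]
    [TopologicalSpace Y] [ChartedSpace (Cm p) Y] (f : X → Y) (Δ : Set X → ℝ)
    (a : Fin q → Set X → ℤ), 0 < d →
    H511.Surf.IsFibration (Cm (p + d)) (Cm p) f Δ →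
    (∃ w : Chart (p + d) X → Cm (p + d) → Matrix (Fin (p + d)) (Fin (p + d)) ℂ, IsKahler w) →
    ∀ 𝒟 : Finset (Set X), (∀ D ∈ 𝒟, Δ D = 1) →
    ∀ H₀ : ℕ → Set Y, (∀ k, IsThinSet (Cm p) (H₀ k)) → (∀ y, (∀ k, y ∉ H₀ k) →
      ∃ (F : Type) (_ : TopologicalSpace F) (_ : T2Space F) (_ : ChartedSpace (Cm d) F)
        (i : F → X), H511.Surf.IsFibre (Cm (p + d)) (Cm d) f y i ∧
        (∀ x, (i ⁻¹' {x}).encard ≤ m) ∧ XGaussRank (p + d) d i 𝒟 a r) →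
    ∃ H : ℕ → Set Y, (∀ k, IsThinSet (Cm p) (H k)) ∧ ∀ y, (∀ k, y ∉ H k) →
      ∀ (F : Type) [TopologicalSpace F] [ChartedSpace (Cm d) F] (i : F → X),
        H511.Surf.IsFibre (Cm (p + d)) (Cm d) f y i →
        ((r : ℕ∞) : WithBot ℕ∞) + TZ.S.kodF (p + d) p Δ (id : X → X) f ≤
            TZ.S.kodX (Cm (p + d)) Δ ∧
          (TZ.S.kodR (Cm (p + d)) (Cm d) i Δ ≤ ((r : ℕ∞) : WithBot ℕ∞) →
            TZ.S.kodR (Cm (p + d)) (Cm d) i Δ + TZ.S.kodF (p + d) p Δ (id : X → X) f ≤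
              TZ.S.kodX (Cm (p + d)) Δ ∧
            (NoExc (Cm (p + d)) (Cm p) f → H511.Surf.Q1 (Cm (p + d)) (Cm p) (Cm d) f Δ i))

end Vale.Agent.P281.H511.UL
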