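import Vale.Agent.P281.H511.UL.Log
import Vale.Agent.P281.H511.UD.Has

/-!
# P281, project T-UL (helper511): the forms (`HasULStmt`)
-/

open scoped Manifold ContDiff Topology
open Set Filter Metric Module

namespace Vale.Agent.P281.H511.UL

open Vale.Agent.P281 Vale.Agent.P281.MF Vale.Agent.P281.ISO Vale.Agent.P281.ELL
open Vale.Agent.P281.H713 Vale.Agent.P281.H64.TU Vale.Agent.P281.H511.D Vale.Agent.P281.H511.UD
open Vale.Agent.P281.H349.U (IsTerm Fm tu nu isTerm_tu KU jets jets_of_rank minor_symm full_map)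

set_option linter.unusedSectionVars false

section Forms

variable {E E' : Type} [NormedAddCommGroup E] [NormedSpace ℂ E] [FiniteDimensional ℂ E]
  [NormedAddCommGroup E'] [NormedSpace ℂ E'] [FiniteDimensional ℂ E']
variable {X Y : Type} [TopologicalSpace X] [ChartedSpace E X] [IsManifold 𝓘(ℂ, E) ω X]
  [TopologicalSpace Y] [ChartedSpace E' Y] [IsManifold 𝓘(ℂ, E') ω Y]
variable {V : Type} [NormedAddCommGroup V] [InnerProductSpace ℂ V] [FiniteDimensional ℂ V]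
variable {n d r : ℕ} {Q : (Fin n → ℝ) → (Fin n → ℝ) → ℝ}
variable {f : X → Y} {S : Set Y} {ι : Type} {U : ι → Set Y}
  {π : ι → Y → ((Fin n → ℝ) ≃L[ℝ] V)} {𝒟 : Finset (Set X)}
  {L : ι → X → (X → V) → Prop} {𝒯 : Tame (Fin d → ℂ) X}

variable {wt k D q : ℕ} {T : ((Fin d → ℂ) → V) → (Fin d → ℂ) → ℂ} {φ : ℂ × Cub V → ℂ}
  {π₀ : (Fin n → ℝ) ≃L[ℝ] V} {G₀ : V ≃L[ℂ] V}

open Classical in
/-- the pole orders of the forms -/
noncomputable def kapN (𝒟 : Finset (Set X)) (N : ℕ) (D : Set X) : ℕ :=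
  if D ∈ 𝒟 then N else 0

theorem kapN_prod {N : ℕ} (hN : 0 < N) {T : Finset (Set X)}
    (hT : ∀ D, kapN 𝒟 N D ≠ 0 → D ∈ T) (e : Set X → X → ℂ) (z : X) :
    ∏ D ∈ T, e D z ^ kapN 𝒟 N D = ∏ D ∈ 𝒟, e D z ^ N := by
  classical
  have h1 : 𝒟 ⊆ T := fun D hD => hT D (by
    unfold kapN
    rw [if_pos hD]
    omega)
  rw [← Finset.prod_subset h1 (f := fun D => e D z ^ kapN 𝒟 N D) (fun D _ hD => by
    unfold kapN
    rw [if_neg hD, pow_zero])]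
  refine Finset.prod_congr rfl fun D hD => ?_
  unfold kapN
  rw [if_pos hD]

theorem relFormL (ext : LogExtStmt) (hC : IsUL E E' d 𝒯 f S Q U π 𝒟 L) (hd : 0 < d) (hn : 0 < n)
    (hf : ContMDiff 𝓘(ℂ, E) 𝓘(ℂ, E') ω f) (hS : IsClosed S)
    (hprime : ∀ D ∈ 𝒟, IsPrimeDivisor E D)
    (e₀ : E ≃L[ℂ] (E' × (Fin d → ℂ))) (hwt : 0 < wt) (hT : IsTermD wt k D T) (hφ : IsHom q φ)
    (hk : 3 * q + 2 * (n * n + 1) ≤ k) (h₀ : IsPol Q π₀ G₀) {Θ : X → ℂ}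
    (hΘ : IsValL e₀ Q π₀ G₀ T φ wt f π L Θ) :
    RelFormT 𝒯 f S e₀ wt (𝒟 : Set (Set X)) (kapN 𝒟 wt) Θ := by
  have hfM : ∀ x, HolM E E' f x := fun x => hf x
  refine ⟨hol_of_local hfM e₀ ?_, ?_⟩
  · intro x hx F eD hF heD
    obtain ⟨ζ, hζ⟩ := hC.coord x hx
    have hsub : ∀ D ∈ 𝒟, IsLocalEq E D (eD D) x := fun D hD => heD D (hF D (by
      unfold kapN
      rw [if_pos hD]
      omega))
    obtain ⟨c, hc, hev⟩ := ext d wt E E' X Y f S e₀ 𝒟 Θ hd hf hS hC.coord hprime hC.thin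
      (fun z hz hzD ζ' hζ' => by
        obtain ⟨a, ha⟩ := (hC.cover _).1 hz
        obtain ⟨β, hβ⟩ := hC.lift a z ha hzD
        exact form_localL hC hn hfM e₀ hT.toIsTerm hφ (by omega) h₀ hΘ hβ hζ'.1 hζ'.2)
      (fun z hz e' he' => log_slices hC hn hfM e₀ hT hφ hk h₀ hΘ hz he') x hx ζ hζ eD hsub
    refine ⟨ζ, c, hζ.1, hc, ?_⟩
    filter_upwards [hev] with z h1 h2 _
    rw [kapN_prod hwt hF]
    exact h1 fun D hD => h2 D hD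
  · intro ρ K hρ hK
    obtain ⟨C, hCb⟩ := form_boundL hC hn e₀ hT hφ hk h₀ hΘ hρ hK
    exact ⟨C, fun v₀ s h1 h2 h3 h4 h5 h6 P h7 => hCb v₀ s h1 h2 h3 h4 (fun v hv D hD =>
      h5 v hv D hD) h6 P h7⟩

theorem hasForms_ul (ext : LogExtStmt) (hC : IsUL E E' d 𝒯 f S Q U π 𝒟 L) (hd : 0 < d)
    (hfc : ContMDiff 𝓘(ℂ, E) 𝓘(ℂ, E') ω f) (hS : IsClosed S)
    (e₀ : E ≃L[ℂ] (E' × (Fin d → ℂ))) {Δ : Set X → ℝ}
    (hΔ : ∀ D, 0 ≤ Δ D) (hprime : ∀ D ∈ 𝒟, IsPrimeDivisor E D) (h𝒟Δ : ∀ D ∈ 𝒟, Δ D = 1)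
    {y : Y} (hrk : RankUL E (d := d) f U L r y) : HasFormsT 𝒯 f S e₀ Δ r y := by
  classical
  have hn' : (ω : WithTop ℕ∞) ≠ 0 := by simp
  have hf : ∀ x, HolM E E' f x := fun x => hfc x
  obtain ⟨a₀, ha₀, q, v₀, hq, hfq, ⟨β, hβ⟩, hnd⟩ := hrk
  obtain ⟨G₀, h₀⟩ : ∃ G₀, IsPol Q (π a₀ y) G₀ := hC.polarized a₀ y ha₀
  set π₀ := π a₀ y with hπ₀
  have hfx₀ : f (q v₀) = y := hfq.self_of_nhds
  have hfa : f (q v₀) ∈ U a₀ := by rw [hfx₀]; exact ha₀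
  have hyS : y ∉ S := (hC.cover y).2 ⟨a₀, ha₀⟩
  have hβh : HolV E β (q v₀) := hC.liftHol a₀ (q v₀) β hβ
  set b : (Fin d → ℂ) → V := fun v => β (q v) with hb
  set γ : (Fin d → ℂ) → Cub V := fun _ => 0 with hγ
  have hbc : ContDiffAt ℂ ω b v₀ := (slice_fderiv hq hβh).1
  have hγc : ContDiffAt ℂ ω γ v₀ := contDiffAt_const
  have hqt : Tendsto q (𝓝 v₀) (𝓝 (q v₀)) := hq.continuousAt
  obtain ⟨⟨mm, hm0, hsurj⟩, hfull⟩ := hnd β hβ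
  have hn : 0 < n := pos_of_period π₀ (finrank_pos_of_minor hd hm0)
  set Λ : Fin (r + 1) → ((ℂ × Cub V) →L[ℂ] ℂ) := fun _ => ContinuousLinearMap.fst ℂ ℂ (Cub V)
    with hΛ
  have hΛ1 : ∀ (j : Fin (r + 1)) (v : Fin d → ℂ), Λ j (1, γ v) = 1 := fun j v => rfl
  -- good points
  have hq' : ∀ᶠ v in 𝓝 v₀, ContMDiffAt 𝓘(ℂ, Fin d → ℂ) 𝓘(ℂ, E) ω q v :=
    (contMDiffAt_iff_contMDiffAt_nhds (by simp)).1 hq
  have hgood : ∀ᶠ v in 𝓝 v₀, (∃ P, SlG E f q v (q v) P) ∧ L a₀ (q v) β ∧ f (q v) = y := by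
    filter_upwards [hq', eventually_eventually_nhds.2 hfq, hqt.eventually (HolV.eventually hβh),
      hqt.eventually (hC.near a₀ (q v₀) β hβ),
      (minor_contDiffAt (mm 0) hbc).continuousAt.eventually_ne hm0] with v h1 h2 h3 h4 h5
    obtain ⟨P, hP⟩ := slice_leftInv h1 h3 h5
    have h8 : f (q v) = y := h2.self_of_nhds
    refine ⟨⟨P, rfl, h1, ?_, hP⟩, h4, h8⟩
    filter_upwards [h2] with z hz
    rw [hz, h8]
  set e : Basis (Fin (finrank ℂ V)) ℂ V := finBasis ℂ V with he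
  set h : (Fin d → ℂ) → V := fun v => G₀ (b v) with hh
  have hhc : ContDiffAt ℂ ω h v₀ := cd_map hbc (G₀ : V →L[ℂ] V)
  set t : Fin (r + 1) → Fm d V := fun j a => (mm j a).comp (G₀.symm : V →L[ℂ] V) with ht
  have hmt : ∀ j, (fun v => minor (t j) h v * Λ j (1, γ v)) =ᶠ[𝓝 v₀]
      fun v => minor (mm j) b v := by
    intro j
    filter_upwards [minor_symm hbc G₀ (mm j)] with v hv
    rw [hv, hΛ1 j v, mul_one]
  have hdiff : ∀ j, DifferentiableAt ℂ (minor (mm j) b) v₀ := fun j =>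
    (minor_contDiffAt (mm j) hbc).differentiableAt hn'
  have hj₀ : LinearIndependent ℂ (jets (fun j v => minor (t j) h v * Λ j (1, γ v)) v₀) := by
    rw [jets_congr hmt]
    exact jets_of_rank hdiff hm0 hsurj
  have ht0 : minor (t 0) h v₀ * Λ 0 (1, γ v₀) ≠ 0 := by
    have h1 : minor (t 0) h v₀ * Λ 0 (1, γ v₀) = minor (mm 0) b v₀ := (hmt 0).self_of_nhds
    rw [h1]
    exact hm0
  obtain ⟨v₁, hg₁, hhv₁, hγv₁, htj, ht1, hgen, hgenw, i₀, l, R₀, m, hm, hmne, hmax⟩ :=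
    ud_prep hn h₀ hhc hγc hj₀ ht0 (full_map hfull G₀) e (eventually_eventually_nhds.2 hgood)
  obtain ⟨qq, D, Ψ, Φ, hqq, hMD, hΨ, hΦ, hlim⟩ :=
    ud_limit hn h₀ hhv₁ hγv₁ htj ht1 hgen hgenw hm hmne hmax 0
  -- the weight
  have hnu0 : 0 < nu l := by
    have hg : 0 < finrank ℂ V := finrank_pos_of_minor hd hm0
    exact Finset.sum_pos (fun i _ => by omega) ⟨⟨0, hg⟩, Finset.mem_univ _⟩
  obtain ⟨k, hk2, hs0, hind⟩ := hlim (3 * qq + 2 * (n * n + 1))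
  set wt : ℕ := k * nu l + D with hwt
  have hD0 : 0 < wt := by
    have h4 : 0 < k * nu l := Nat.mul_pos (by omega) hnu0
    omega
  have hT : ∀ j, IsTermD wt k D (tu e i₀ l m k (Ψ j)) := fun j =>
    isTermD_tu hd e i₀ l m k (hΨ j)
  choose Θ hΘ using fun j => exists_formL hC hf e₀ (hT j).toIsTerm (Φ j) π₀ G₀
  have hrelj : ∀ j, RelFormT 𝒯 f S e₀ wt (𝒟 : Set (Set X)) (kapN 𝒟 wt) (Θ j) := fun j =>
    relFormL ext hC hd hn hfc hS hprime e₀ hD0 (hT j) (hΦ j) hk2 h₀ (hΘ j)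
  obtain ⟨⟨P₁, hP₁⟩, hL₁, hy₁⟩ := hg₁.self_of_nhds
  set x₁ := q v₁ with hx₁
  have hxS : f x₁ ∉ S := by rw [hy₁]; exact hyS
  obtain ⟨ζ, hζ, hinj⟩ := hC.coord x₁ hxS
  -- the values along the slice
  set s : Fin (r + 1) → (Fin d → ℂ) → ℂ := fun j v =>
    ∑' M : spq Q, sud e i₀ l m k (Ψ j) (Φ j) π₀ G₀ h γ M v with hs
  have hgs : ∀ j v, gvd Q π₀ G₀ (tu e i₀ l m k (Ψ j)) (Φ j) π₀ b (1, 0) v = s j v := by
    intro j v
    unfold gvd gtm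
    refine tsum_congr fun M => ?_
    have h3 : (fun u => LN π₀ G₀ π₀ (mx M) (b u)) = fun u => Cc π₀ G₀ M (h u) := by
      funext u
      exact LN_eq M (b u)
    rw [h3]
    rfl
  have hval : ∀ᶠ v in 𝓝 v₁, ∃ J : ℂ, J ≠ 0 ∧ ∀ j, Θ j (q v) = s j v * J := by
    filter_upwards [hg₁] with v hv
    obtain ⟨⟨P, hP⟩, hL, hyv⟩ := hv
    obtain ⟨ζ', hζ', hinj'⟩ := hC.coord (q v) (by rw [hyv]; exact hyS)
    refine ⟨JP e₀ (dM E E' f (q v)) P ^ wt, ?_, fun j => ?_⟩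
    · have h8 := JP_slice hf e₀ hP.2.1 hP.2.2.1 hζ' hinj' hP.2.2.2
      have h9 : JP e₀ (dM E E' f (q v)) (dV E ζ' (q v)) ≠ 0 := H713.JP_ne_zero e₀ hinj'
      refine pow_ne_zero _ fun h0 => h9 ?_
      rw [h8, h0, mul_zero]
    · have h1 := hΘ j a₀ (q v) β hL q v P hP
      rw [h1, hyv, ← hgs j v]
  -- local expressions
  have hlocal : ∀ j, ∃ c : X → ℂ, HolV E c x₁ ∧ ∀ᶠ z in 𝓝 x₁,
      Θ j z = c z * JP e₀ (dM E E' f z) (dV E ζ z) ^ wt := fun j =>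
    form_localL hC hn hf e₀ (hT j).toIsTerm (hΦ j) (by omega) h₀ (hΘ j) hL₁ hζ hinj
  choose c hc hce using hlocal
  have hΘ0 : Θ 0 x₁ ≠ 0 := by
    obtain ⟨J₁, hJ₁, hΘ₁⟩ := hval.self_of_nhds
    show Θ 0 (q v₁) ≠ 0
    rw [hΘ₁ 0]
    exact mul_ne_zero hs0 hJ₁
  have hc0 : c 0 x₁ ≠ 0 := by
    intro h0
    apply hΘ0
    rw [(hce 0).self_of_nhds, h0, zero_mul]
  have hev : ∀ᶠ z in 𝓝 x₁, Θ 0 z ≠ 0 ∧ ∀ j, Θ j z / Θ 0 z = c j z / c 0 z := by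
    filter_upwards [(Filter.eventually_all).2 hce, (hc 0).continuousAt.eventually_ne hc0,
      ker_eventually hf e₀ hζ hinj] with z h1 h2 h3
    have h5 := pow_ne_zero wt (H713.JP_ne_zero e₀ h3)
    refine ⟨by rw [h1 0]; exact mul_ne_zero h2 h5, fun j => ?_⟩
    rw [h1 j, h1 0]
    exact mul_div_mul_right _ _ h5
  have hratio : ∀ j, HolV E (fun z => Θ j z / Θ 0 z) x₁ := fun j =>
    ((hc j).div (hc 0) hc0).congr (hev.mono fun z hz => hz.2 j)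
  refine ⟨wt, (𝒟 : Set (Set X)), kapN 𝒟 wt, Θ 0, fun j => Θ j.succ, hD0,
    𝒟.finite_toSet, fun D hD => hprime D hD, hrelj 0, fun j => hrelj j.succ, ?_, x₁, hy₁,
    hev.mono fun z hz => hz.1, fun j => hratio j.succ, ?_⟩
  · intro D'
    unfold kapN
    by_cases hD' : D' ∈ 𝒟
    · rw [if_pos hD', h𝒟Δ D' hD', mul_one]
    · rw [if_neg hD', Nat.cast_zero]
      exact mul_nonneg (Nat.cast_nonneg _) (hΔ D')
  · intro a ha
    have h1 := hind a fun ξ => ?_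
    · exact fun j => congrFun h1 j
    · have hqv : ContMDiffAt 𝓘(ℂ, Fin d → ℂ) 𝓘(ℂ, E) ω q v₁ := hP₁.2.1
      have h2 := ha ((mfderiv 𝓘(ℂ, Fin d → ℂ) 𝓘(ℂ, E) q v₁ : (Fin d → ℂ) →L[ℂ] E) ξ)
        (slice_ker hf hqv hP₁.2.2.1 ξ)
      rw [← h2]
      refine Finset.sum_congr rfl fun j _ => ?_
      congr 1
      have h3 : (fun w => s j.succ w / s 0 w) =ᶠ[𝓝 v₁]
          fun w => Θ j.succ (q w) / Θ 0 (q w) := by
        filter_upwards [hval] with w hw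
        obtain ⟨J, hJ, hJe⟩ := hw
        rw [hJe, hJe, mul_div_mul_right _ _ hJ]
      have h4 := (slice_fderiv hqv (hratio j.succ)).2
      have h5 := h3.fderiv_eq (𝕜 := ℂ)
      rw [h4] at h5
      exact congrArg (fun L : (Fin d → ℂ) →L[ℂ] ℂ => L ξ) h5

end Forms

/-- **UF**: the forms of T-UL -/
theorem hasUL_of (ext : LogExtStmt) : HasULStmt := by
  intro d r n E E' _ _ _ _ _ _ X Y _ _ _ _ _ _ V _ _ _ 𝒯 f S Q ι U π 𝒟 L e₀ Δ hd hf hS hC hprime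
    hΔ0 hΔ y _ hrk
  exact hasForms_ul ext hC hd hf hS e₀ hΔ0 hprime hΔ hrk

end Vale.Agent.P281.H511.UL
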