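import Vale.Agent.P281.H511.UL.Spec
import Vale.Agent.P281.H511.UD.Form
import Vale.Agent.P281.H165.L.Log

/-!
# P281, project T-UL (helper511): the relative forms
-/

open scoped Manifold ContDiff Topology
open Set Filter Metric Module

namespace Vale.Agent.P281.H511.UL

open Vale.Agent.P281 Vale.Agent.P281.MF Vale.Agent.P281.ISO Vale.Agent.P281.ELL
open Vale.Agent.P281.H713 Vale.Agent.P281.H64.TU Vale.Agent.P281.H511.D Vale.Agent.P281.H511.UD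
open Vale.Agent.P281.H349.U (IsTerm)

set_option linter.unusedSectionVars false

section Forms

variable {E E' : Type} [NormedAddCommGroup E] [NormedSpace ℂ E] [FiniteDimensional ℂ E]
  [NormedAddCommGroup E'] [NormedSpace ℂ E'] [FiniteDimensional ℂ E']
variable {X Y : Type} [TopologicalSpace X] [ChartedSpace E X] [IsManifold 𝓘(ℂ, E) ω X]
  [TopologicalSpace Y] [ChartedSpace E' Y] [IsManifold 𝓘(ℂ, E') ω Y]
variable {V : Type} [NormedAddCommGroup V] [InnerProductSpace ℂ V] [FiniteDimensional ℂ V]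
variable {n d r : ℕ} {Q : (Fin n → ℝ) → (Fin n → ℝ) → ℝ}
variable {f : X → Y} {S : Set Y} {ι : Type} {U : ι → Set Y}
  {π : ι → Y → ((Fin n → ℝ) ≃L[ℝ] V)} {𝒟 : Finset (Set X)}
  {L : ι → X → (X → V) → Prop} {𝒯 : Tame (Fin d → ℂ) X}

variable {wt k D q : ℕ} {T : ((Fin d → ℂ) → V) → (Fin d → ℂ) → ℂ} {φ : ℂ × Cub V → ℂ}
  {π₀ : (Fin n → ℝ) ≃L[ℝ] V} {G₀ : V ≃L[ℂ] V}

theorem pull_zero' (A : V →L[ℂ] V) : pull (0 : Cub V) A = 0 := by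
  ext x
  rfl

/-- the value of the form is well defined -/
theorem gvd_indepL (hC : IsUL E E' d 𝒯 f S Q U π 𝒟 L) (hf : ∀ x, HolM E E' f x)
    (e₀ : E ≃L[ℂ] (E' × (Fin d → ℂ))) (hT : IsTerm wt k T) {a b : ι} {x : X} {β β' : X → V}
    (hβ : L a x β) (hβ' : L b x β') {s s' : (Fin d → ℂ) → X} {v v' : Fin d → ℂ}
    {P P' : E →L[ℂ] (Fin d → ℂ)} (hq : SlG E f s v x P) (hq' : SlG E f s' v' x P') :
    gvd Q π₀ G₀ T φ (π a (f x)) (fun t => β (s t)) (1, 0) v * JP e₀ (dM E E' f x) P ^ wt =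
      gvd Q π₀ G₀ T φ (π b (f x)) (fun t => β' (s' t)) (1, 0) v' *
        JP e₀ (dM E E' f x) P' ^ wt := by
  obtain ⟨G, c, hG, hGc⟩ := hC.change a b x β β' hβ hβ'
  obtain ⟨ζ, hζ, hinj⟩ := hC.coord x ((hC.cover _).2 ⟨a, (hC.mem a x β hβ).1⟩)
  obtain ⟨R, hR1, hR2, -⟩ := exists_slices hf e₀ hζ hinj
  have hβh : HolV E β x := hC.liftHol a x β hβ
  rw [gvd_slice hf e₀ hT _ hζ hinj hR1 hR2 hβh hq]
  rw [← gvd_slice hf e₀ hT (π a (f x)) hζ hinj hR1 hR2 hβh hq']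
  congr 1
  obtain ⟨hq0, hq1, hq2, -⟩ := hq'
  have hbc : ContDiffAt ℂ ω (fun t => β (s' t)) v' := by
    have h1 : HolV E β (s' v') := by rw [hq0]; exact hβh
    exact (slice_fderiv hq1 h1).1
  have hw : (0 : Cub V) = pull (0 : Cub V) (G : V →L[ℂ] V) := (pull_zero' _).symm
  have h0 := gvd_affine (Q := Q) (π₀ := π₀) (G₀ := G₀) (φ := φ) hT hG c hbc 1 (0 : Cub V)
  rw [← hw] at h0
  rw [← h0]
  refine gvd_congr hT ?_ _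
  have hqt : Tendsto s' (𝓝 v') (𝓝 x) := by
    have := hq1.continuousAt.tendsto
    rwa [hq0] at this
  filter_upwards [hqt.eventually hGc, hq2] with t h1 h2
  exact (h1 h2).symm

/-- the property which characterizes the form `Θ` -/
def IsValL (e₀ : E ≃L[ℂ] (E' × (Fin d → ℂ))) (Q : (Fin n → ℝ) → (Fin n → ℝ) → ℝ)
    (π₀ : (Fin n → ℝ) ≃L[ℝ] V) (G₀ : V ≃L[ℂ] V) (T : ((Fin d → ℂ) → V) → (Fin d → ℂ) → ℂ)
    (φ : ℂ × Cub V → ℂ) (wt : ℕ) (f : X → Y)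
    (π : ι → Y → ((Fin n → ℝ) ≃L[ℝ] V)) (L : ι → X → (X → V) → Prop) (Θ : X → ℂ) : Prop :=
  ∀ a x β, L a x β → ∀ s v P, SlG E f s v x P →
    Θ x = gvd Q π₀ G₀ T φ (π a (f x)) (fun t => β (s t)) (1, 0) v *
      JP e₀ (dM E E' f x) P ^ wt

/-- the forms -/
theorem exists_formL (hC : IsUL E E' d 𝒯 f S Q U π 𝒟 L) (hf : ∀ x, HolM E E' f x)
    (e₀ : E ≃L[ℂ] (E' × (Fin d → ℂ))) (hT : IsTerm wt k T) (φ : ℂ × Cub V → ℂ)
    (π₀ : (Fin n → ℝ) ≃L[ℝ] V) (G₀ : V ≃L[ℂ] V) :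
    ∃ Θ : X → ℂ, IsValL e₀ Q π₀ G₀ T φ wt f π L Θ := by
  classical
  have hex : ∀ x, ∃ θ : ℂ, ∀ a β, L a x β → ∀ s v P,
      SlG E f s v x P →
      θ = gvd Q π₀ G₀ T φ (π a (f x)) (fun t => β (s t)) (1, 0) v *
        JP e₀ (dM E E' f x) P ^ wt := by
    intro x
    by_cases hx : ∃ a β, L a x β
    · obtain ⟨a, β, hβ⟩ := hx
      obtain ⟨ζ, hζ, hinj⟩ := hC.coord x ((hC.cover _).2 ⟨a, (hC.mem a x β hβ).1⟩)
      obtain ⟨R, hR1, hR2, hR3⟩ := exists_slices hf e₀ hζ hinj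
      have hq := (slg_near hf hζ hR1 hR2 hR3).self_of_nhds
      exact ⟨_, fun b β' hβ' s' v' P' hq' => gvd_indepL hC hf e₀ hT hβ hβ' hq hq'⟩
    · exact ⟨0, fun a β hβ => absurd ⟨a, β, hβ⟩ hx⟩
  choose Θ hΘ using hex
  exact ⟨Θ, fun a x => hΘ x a⟩

/-- holomorphy of the coefficients off the divisors -/
theorem form_localL (hC : IsUL E E' d 𝒯 f S Q U π 𝒟 L) (hn : 0 < n)
    (hf : ∀ x, HolM E E' f x) (e₀ : E ≃L[ℂ] (E' × (Fin d → ℂ))) (hT : IsTerm wt k T)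
    (hφ : IsHom q φ) (hk : 3 * q + (n * n + 1) ≤ k) (h₀ : IsPol Q π₀ G₀) {Θ : X → ℂ}
    (hΘ : IsValL e₀ Q π₀ G₀ T φ wt f π L Θ) {x : X} {a : ι}
    {β : X → V} (hβ : L a x β) {ζ : X → (Fin d → ℂ)}
    (hζ : HolV E ζ x) (hinj : ∀ ξ, dM E E' f x ξ = 0 → dV E ζ x ξ = 0 → ξ = 0) :
    ∃ (c : X → ℂ), HolV E c x ∧ ∀ᶠ z in 𝓝 x,
      Θ z = c z * JP e₀ (dM E E' f z) (dV E ζ z) ^ wt := by
  have ha : f x ∈ U a := (hC.mem a x β hβ).1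
  have hβh : HolV E β x := hC.liftHol a x β hβ
  obtain ⟨R, hR1, hR2, hR3⟩ := exists_slices hf e₀ hζ hinj
  set ψ := chartAt E' (f x) with hψ
  have hys : f x ∈ ψ.source := mem_chart_source E' (f x)
  have hR0 : R (ψ (f x), ζ x) = x := hR2.self_of_nhds
  have hpair : HolV E (fun z => (ψ (f z), ζ z)) x :=
    (HolV.comp (h := (ψ : Y → E')) (HolV.chart hys) (hf x)).prodMk hζ
  have hB : ContDiffAt ℂ ω (fun p => β (R p)) (ψ (f x), ζ x) := by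
    have h1 : HolV E β (R (ψ (f x), ζ x)) := by rw [hR0]; exact hβh
    exact (slice_fderiv hR1 h1).1
  set U₁ : Set E' := ψ.target ∩ ψ.symm ⁻¹' (U a) with hU₁
  have hU₁o : IsOpen U₁ :=
    ψ.continuousOn_symm.isOpen_inter_preimage ψ.open_target (hC.isOpen a)
  have hx₁ : ψ (f x) ∈ U₁ := by
    refine ⟨ψ.map_source hys, ?_⟩
    show ψ.symm (ψ (f x)) ∈ U a
    rw [ψ.left_inv hys]
    exact ha
  have hPd : ∀ w, DifferentiableOn ℂ (fun p => π a (ψ.symm p) w) U₁ := by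
    intro w p hp
    have h1 : HolV E' (fun y => π a y w) (ψ.symm p) := hC.hol a w _ hp.2
    have h2 := h1.rep (ψ.map_target hp.1)
    rw [ψ.right_inv hp.1] at h2
    exact (h2.differentiableAt (by simp)).differentiableWithinAt
  have hG := gvd_analytic (T := T) (Q := Q) hn hk hT hφ h₀ hU₁o
    (P := fun p => π a (ψ.symm p)) hPd (fun p hp => hC.polarized a _ hp.2)
    (B := fun y => β (R y)) (Z := fun _ => ((1, 0) : ℂ × Cub V))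
    (x₀ := (ψ (f x), ζ x)) hx₁ hB contDiffAt_const
  refine ⟨fun z => gvd Q π₀ G₀ T φ (π a (ψ.symm (ψ (f z))))
    (fun t => β (R (ψ (f z), t))) (1, 0) (ζ z), ?_, ?_⟩
  · exact HolV.comp_contDiff (v := fun z => (ψ (f z), ζ z)) hG.contDiffAt hpair
  · filter_upwards [slg_near hf hζ hR1 hR2 hR3, hC.near a x β hβ,
      (hf x).continuousAt.eventually (ψ.open_source.mem_nhds hys)] with z h1 h2 h5
    rw [ψ.left_inv h5, hΘ a z β h2 _ _ _ h1]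

/-- the value on a slice, if the derivatives of the lift are bounded -/
theorem val_bound (hn : 0 < n) {ρ B : ℝ} (hρ : 0 < ρ) (hB : 0 ≤ B) (hT : IsTermD wt k D T)
    (hφ : IsHom q φ) (hk : 3 * q + 2 * (n * n + 1) ≤ k) (h₀ : IsPol Q π₀ G₀) :
    ∃ C : ℝ, 0 ≤ C ∧ ∀ (P : (Fin n → ℝ) ≃L[ℝ] V) (G : V ≃L[ℂ] V), IsPol Q P G →
      ∀ (h : (Fin d → ℂ) → V) (v₀ : Fin d → ℂ), DifferentiableOn ℂ h (ball v₀ ρ) →
      (∀ v ∈ ball v₀ ρ, ‖fderiv ℂ (fun u => G (h u)) v‖ ≤ B) →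
      ‖gvd Q π₀ G₀ T φ P h (1, 0) v₀‖ ≤ C := by
  obtain ⟨Kφ, hKφ, hφK⟩ := hφ.grow
  obtain ⟨KT, hKT0, hKT⟩ := gvd_bound (Q := Q) (π₀ := π₀) (G₀ := G₀) hn hρ hB hT hKφ hφK hk h₀
  obtain ⟨R', hR'0, hR'⟩ := minor_le (d := d) (V := V) zero_le_one hB
  refine ⟨KT * (max R' 1 ^ D * (1 + 8 * ‖(G₀ : V →L[ℂ] V)‖ ^ 3 * 0) ^ q), by positivity,
    fun P G hG h v₀ hh hb => ?_⟩
  have h8 := hKT P G hG h v₀ hh hb (max R' 1) (lt_max_of_lt_right one_pos)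
    (fun m hm => (hR' m _ v₀ hm (hb v₀ (mem_ball_self hρ))).trans (le_max_left _ _))
    ((1, 0) : ℂ × Cub V)
  have h9 : ‖((1, 0) : ℂ × Cub V).1‖ = 1 := norm_one
  have h10 : ‖pull ((1, 0) : ℂ × Cub V).2 (G.symm : V →L[ℂ] V)‖ = 0 := by
    show ‖pull (0 : Cub V) _‖ = 0
    rw [pull_zero', norm_zero]
  rw [h9, h10] at h8
  exact h8

/-- the uniform bound on tame slices -/
theorem form_boundL (hC : IsUL E E' d 𝒯 f S Q U π 𝒟 L) (hn : 0 < n)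
    (e₀ : E ≃L[ℂ] (E' × (Fin d → ℂ))) (hT : IsTermD wt k D T) (hφ : IsHom q φ)
    (hk : 3 * q + 2 * (n * n + 1) ≤ k) (h₀ : IsPol Q π₀ G₀) {Θ : X → ℂ}
    (hΘ : IsValL e₀ Q π₀ G₀ T φ wt f π L Θ) {ρ K : ℝ} (hρ : 0 < ρ) (hK : 0 < K) :
    ∃ C : ℝ, ∀ (v₀ : Fin d → ℂ) (s : (Fin d → ℂ) → X),
      (∀ v ∈ ball v₀ ρ, ContMDiffAt 𝓘(ℂ, Fin d → ℂ) 𝓘(ℂ, E) ω s v) → InjOn s (ball v₀ ρ) →
      (∀ v ∈ ball v₀ ρ, f (s v) = f (s v₀)) → f (s v₀) ∉ S →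
      (∀ v ∈ ball v₀ ρ, ∀ D ∈ 𝒟, s v ∉ D) → 𝒯 K s v₀ ρ →
      ∀ P : E →L[ℂ] (Fin d → ℂ),
      P.comp (mfderiv 𝓘(ℂ, Fin d → ℂ) 𝓘(ℂ, E) s v₀ : (Fin d → ℂ) →L[ℂ] E) =
        ContinuousLinearMap.id ℂ (Fin d → ℂ) →
      ‖Θ (s v₀)‖ ≤ C * ‖JP e₀ (dM E E' f (s v₀)) P ^ wt‖ := by
  obtain ⟨B, hB⟩ := hC.bound ρ K hρ hK
  have hρ2 : 0 < ρ / 2 := half_pos hρ
  obtain ⟨C, hC0, hCb⟩ := val_bound (Q := Q) (π₀ := π₀) (G₀ := G₀) hn hρ2 (le_max_right B 0) hT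
    hφ hk h₀
  refine ⟨C, fun v₀ s h1 h2 h3 h4 h5 hTm P h6 => ?_⟩
  obtain ⟨a, ha⟩ := (hC.cover _).1 h4
  obtain ⟨h, hh1, ⟨β, hβ, hβh⟩, hh3⟩ := hB a s v₀ ⟨h1, h2, h3⟩ hTm ha h5
  obtain ⟨G, hG⟩ : ∃ G, IsPol Q (π a (f (s v₀))) G := hC.polarized a _ ha
  have hv₀ : v₀ ∈ ball v₀ ρ := mem_ball_self hρ
  have hslc : SlG E f s v₀ (s v₀) P :=
    ⟨rfl, h1 v₀ hv₀, eventually_of_mem (ball_mem_nhds v₀ hρ) h3, h6⟩
  rw [hΘ a _ β hβ s v₀ P hslc, gvd_congr hT.toIsTerm hβh, norm_mul]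
  exact mul_le_mul_of_nonneg_right (hCb _ G hG h v₀
    (hh1.mono (ball_subset_ball (by linarith)))
    (fun v hv => (hh3 G hG v hv).trans (le_max_left _ _))) (norm_nonneg _)

end Forms

end Vale.Agent.P281.H511.UL
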