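import Vale.Agent.P281.H511.UL.Form

/-!
# P281, project T-UL (helper511): the bound on the slices with bounded logarithmic derivatives
-/

open scoped Manifold ContDiff Topology
open Set Filter Metric Module

namespace Vale.Agent.P281.H511.UL

open Vale.Agent.P281 Vale.Agent.P281.MF Vale.Agent.P281.ISO Vale.Agent.P281.ELL
open Vale.Agent.P281.H713 Vale.Agent.P281.H64.TU Vale.Agent.P281.H511.D Vale.Agent.P281.H511.UD
open Vale.Agent.P281.H349.U (IsTerm)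
open Vale.Agent.P281.H165.L (exists_log_ball)

set_option linter.unusedSectionVars false

theorem log_unique {α : Type*} [TopologicalSpace α] {g h : α → ℂ} {a : α} (hg : ContinuousAt g a)
    (hh : ContinuousAt h a) (h0 : g a = h a) (he : ∀ᶠ z in 𝓝 a, Complex.exp (g z) = Complex.exp (h z)) :
    ∀ᶠ z in 𝓝 a, g z = h z := by
  have h1 : ContinuousAt (fun z => g z - h z) a := hg.sub hh
  have h2 : ∀ᶠ z in 𝓝 a, ‖g z - h z‖ < 1 := by
    have h3 : g a - h a = 0 := sub_eq_zero.2 h0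
    have h4 := h1.tendsto
    rw [h3] at h4
    have h5 := h4.eventually (ball_mem_nhds (0 : ℂ) one_pos)
    filter_upwards [h5] with z hz
    have h6 : g z - h z ∈ ball (0 : ℂ) 1 := hz
    rwa [mem_ball_zero_iff] at h6
  filter_upwards [h2, he] with z h3 h4
  have h5 : Complex.exp (g z - h z) = 1 := by
    rw [Complex.exp_sub, h4, div_self (Complex.exp_ne_zero _)]
  obtain ⟨k, hk⟩ := Complex.exp_eq_one_iff.1 h5
  have h6 : k = 0 := by
    by_contra hk0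
    have h7 : (1 : ℝ) ≤ |(k : ℝ)| := by
      have := Int.one_le_abs hk0
      exact_mod_cast this
    have h8 : ‖g z - h z‖ = |(k : ℝ)| * (2 * Real.pi) := by
      rw [hk, norm_mul, Complex.norm_intCast, norm_mul, norm_mul, Complex.norm_I, mul_one,
        Complex.norm_real, Real.norm_of_nonneg Real.pi_pos.le]
      norm_num
    have h9 := Real.pi_gt_three
    nlinarith
  rw [h6, Int.cast_zero, zero_mul] at hk
  exact sub_eq_zero.1 hk

section Forms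

variable {E E' : Type} [NormedAddCommGroup E] [NormedSpace ℂ E] [FiniteDimensional ℂ E]
  [NormedAddCommGroup E'] [NormedSpace ℂ E'] [FiniteDimensional ℂ E']
variable {X Y : Type} [TopologicalSpace X] [ChartedSpace E X] [IsManifold 𝓘(ℂ, E) ω X]
  [TopologicalSpace Y] [ChartedSpace E' Y] [IsManifold 𝓘(ℂ, E') ω Y]
variable {V : Type} [NormedAddCommGroup V] [InnerProductSpace ℂ V] [FiniteDimensional ℂ V]
variable {n d r : ℕ} {Q : (Fin n → ℝ) → (Fin n → ℝ) → ℝ}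
variable {f : X → Y} {S : Set Y} {ι : Type} {U : ι → Set Y}
  {π : ι → Y → ((Fin n → ℝ) ≃L[ℝ] V)} {𝒟 : Finset (Set X)}
  {L : ι → X → (X → V) → Prop} {𝒯 : Tame (Fin d → ℂ) X}

variable {wt k D q : ℕ} {T : ((Fin d → ℂ) → V) → (Fin d → ℂ) → ℂ} {φ : ℂ × Cub V → ℂ}
  {π₀ : (Fin n → ℝ) ≃L[ℝ] V} {G₀ : V ≃L[ℂ] V}

theorem log_slices (hC : IsUL E E' d 𝒯 f S Q U π 𝒟 L) (hn : 0 < n)
    (hf : ∀ x, HolM E E' f x)
    (e₀ : E ≃L[ℂ] (E' × (Fin d → ℂ))) (hT : IsTermD wt k D T) (hφ : IsHom q φ)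
    (hk : 3 * q + 2 * (n * n + 1) ≤ k) (h₀ : IsPol Q π₀ G₀) {Θ : X → ℂ}
    (hΘ : IsValL e₀ Q π₀ G₀ T φ wt f π L Θ) {x : X} (hx : f x ∉ S) {e : Set X → X → ℂ}
    (he : ∀ D ∈ 𝒟, IsLocalEq E D (e D) x) :
    ∃ C : ℝ, ∃ W ∈ 𝓝 x, ∀ s : (Fin d → ℂ) → X,
      (∀ v ∈ ball (0 : Fin d → ℂ) 1, ContMDiffAt 𝓘(ℂ, Fin d → ℂ) 𝓘(ℂ, E) ω s v ∧ s v ∈ W ∧
        f (s v) = f (s 0) ∧ ∀ D ∈ 𝒟, s v ∉ D ∧
          ‖fderiv ℂ (fun u => e D (s u)) v‖ ≤ ‖e D (s v)‖) →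
      ∀ P : E →L[ℂ] (Fin d → ℂ),
      P.comp (mfderiv 𝓘(ℂ, Fin d → ℂ) 𝓘(ℂ, E) s 0 : (Fin d → ℂ) →L[ℂ] E) =
        ContinuousLinearMap.id ℂ (Fin d → ℂ) →
      ‖Θ (s 0)‖ ≤ C * ‖JP e₀ (dM E E' f (s 0)) P ^ wt‖ := by
  classical
  have hn' : (ω : WithTop ℕ∞) ≠ 0 := by simp
  obtain ⟨a, ha⟩ := (hC.cover _).1 hx
  obtain ⟨γ, c, hγ, hev⟩ := hC.logs a x ha e he
  have hcP : ContinuousAt (fun y => (π a y : (Fin n → ℝ) →L[ℝ] V)) (f x) := by
    have h : ContinuousOn (fun y => (π a y : (Fin n → ℝ) →L[ℝ] V)) (U a) :=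
      continuousOn_clm_apply.2 fun w y hy => (hC.hol a w y hy).continuousAt.continuousWithinAt
    exact h.continuousAt ((hC.isOpen a).mem_nhds ha)
  obtain ⟨CG, hCG0, hCG⟩ := loc_bound h₀ hcP
  have hγc : ∀ᶠ z in 𝓝 x, ‖γ z - γ x‖ ≤ 1 := by
    have h1 : ContinuousAt (fun z => γ z - γ x) x := hγ.continuousAt.sub continuousAt_const
    have h2 := h1.norm.tendsto
    simp only [sub_self, norm_zero] at h2
    exact (h2.eventually (gt_mem_nhds one_pos)).mono fun z hz => hz.le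
  have hγe : ∀ᶠ z in 𝓝 x, HolV E γ z := HolV.eventually (show HolV E γ x from hγ)
  have hee : ∀ᶠ z in 𝓝 x, ∀ D ∈ 𝒟, IsLocalEq E D (e D) z :=
    (Finset.eventually_all _).2 fun D hD => (he D hD).eventually
  set B : ℝ := CG * (2 + ∑ D ∈ 𝒟, ‖c D‖) with hB
  have hB0 : 0 ≤ B := by positivity
  obtain ⟨C, hC0, hCb⟩ := val_bound (Q := Q) (π₀ := π₀) (G₀ := G₀) hn (half_pos one_pos) hB0 hT
    hφ hk h₀
  set W : Set X := {z | ((∀ D ∈ 𝒟, z ∉ D) → ∃ (β : X → V) (ℓ : Set X → X → ℂ), L a z β ∧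
        (∀ D ∈ 𝒟, ContMDiffAt 𝓘(ℂ, E) 𝓘(ℂ, ℂ) ω (ℓ D) z ∧
          ∀ᶠ t in 𝓝 z, Complex.exp (ℓ D t) = e D t) ∧
        ∀ᶠ t in 𝓝 z, f t = f z → β t = γ t + ∑ D ∈ 𝒟, ℓ D t • c D) ∧
      (∀ G : V ≃L[ℂ] V, IsPol Q (π a (f z)) G →
        ‖(G : V →L[ℂ] V)‖ ≤ CG ∧ ‖(G : V →L[ℂ] V).det‖ ≤ CG ∧ dl π₀ (π a (f z)) G₀ G 1 ≤ CG) ∧
      ‖γ z - γ x‖ ≤ 1 ∧ HolV E γ z ∧ (∀ D ∈ 𝒟, IsLocalEq E D (e D) z) ∧ f z ∈ U a} with hW
  have hWm : W ∈ 𝓝 x := by
    filter_upwards [hev, (hf x).continuousAt.eventually hCG, hγc, hγe, hee,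
      (hf x).continuousAt.eventually ((hC.isOpen a).mem_nhds ha)] with z h1 h2 h3 h4 h5 h6
    exact ⟨h1, h2, h3, h4, h5, h6⟩
  refine ⟨C, W, hWm, fun s hs P hP => ?_⟩
  have h00 : (0 : Fin d → ℂ) ∈ ball (0 : Fin d → ℂ) 1 := mem_ball_self one_pos
  obtain ⟨hs1, hs2, -, hs4⟩ := hs 0 h00
  obtain ⟨hw1, hw2, -, -, -, hw6⟩ := hs2
  obtain ⟨β, ℓ, hβ, hℓ, hβe⟩ := hw1 fun D hD => (hs4 D hD).1
  obtain ⟨G, hG⟩ : ∃ G, IsPol Q (π a (f (s 0))) G := hC.polarized a _ hw6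
  have hGn := (hw2 G hG).1
  -- the logarithms on the ball
  have hen : ∀ D ∈ 𝒟, ∀ v ∈ ball (0 : Fin d → ℂ) 1, e D (s v) ≠ 0 := fun D hD v hv h0 =>
    ((hs v hv).2.2.2 D hD).1 (((hs v hv).2.1.2.2.2.2.1 D hD).mem_iff.2 h0)
  have hea : ∀ D ∈ 𝒟, ∀ v ∈ ball (0 : Fin d → ℂ) 1, ContDiffAt ℂ ω (fun u => e D (s u)) v :=
    fun D hD v hv => (slice_fderiv (hs v hv).1 ((hs v hv).2.1.2.2.2.2.1 D hD).holAt).1
  have hlog : ∀ D, ∃ g : (Fin d → ℂ) → ℂ, D ∈ 𝒟 → DifferentiableOn ℂ g (ball 0 1) ∧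
      ∀ v ∈ ball (0 : Fin d → ℂ) 1, Complex.exp (g v) = e D (s v) := by
    intro D
    by_cases hD : D ∈ 𝒟
    · obtain ⟨g, hg⟩ := exists_log_ball one_pos
        (fun v hv => (hea D hD v hv).analyticAt) (hen D hD)
      exact ⟨g, fun _ => hg⟩
    · exact ⟨0, fun h => absurd h hD⟩
  choose lam hlam using hlog
  set lam' : Set X → (Fin d → ℂ) → ℂ := fun D v => lam D v - lam D 0 + ℓ D (s 0) with hlam'
  have hl1 : ∀ D ∈ 𝒟, DifferentiableOn ℂ (lam' D) (ball 0 1) := fun D hD =>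
    ((hlam D hD).1.sub_const _).add_const _
  have hl2 : ∀ D ∈ 𝒟, ∀ v ∈ ball (0 : Fin d → ℂ) 1, Complex.exp (lam' D v) = e D (s v) := by
    intro D hD v hv
    have h1 : Complex.exp (ℓ D (s 0)) = e D (s 0) := (hℓ D hD).2.self_of_nhds
    show Complex.exp (lam D v - lam D 0 + ℓ D (s 0)) = _
    rw [Complex.exp_add, Complex.exp_sub, (hlam D hD).2 v hv, (hlam D hD).2 0 h00, h1,
      div_mul_cancel₀ _ (hen D hD 0 h00)]
  have hl3 : ∀ D ∈ 𝒟, ∀ v ∈ ball (0 : Fin d → ℂ) 1, ‖fderiv ℂ (lam' D) v‖ ≤ 1 := by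
    intro D hD v hv
    have h1 : HasFDerivAt (lam' D) (fderiv ℂ (lam' D) v) v :=
      ((hl1 D hD).differentiableAt (isOpen_ball.mem_nhds hv)).hasFDerivAt
    have h2 : HasFDerivAt (fun u => Complex.exp (lam' D u))
        (Complex.exp (lam' D v) • fderiv ℂ (lam' D) v) v := h1.cexp
    have h3 : (fun u => Complex.exp (lam' D u)) =ᶠ[𝓝 v] fun u => e D (s u) := by
      filter_upwards [isOpen_ball.mem_nhds hv] with u hu
      exact hl2 D hD u hu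
    have h4 : fderiv ℂ (fun u => e D (s u)) v = e D (s v) • fderiv ℂ (lam' D) v := by
      rw [← h3.fderiv_eq, h2.fderiv, hl2 D hD v hv]
    have h5 := ((hs v hv).2.2.2 D hD).2
    rw [h4, norm_smul] at h5
    have h6 : 0 < ‖e D (s v)‖ := norm_pos_iff.2 (hen D hD v hv)
    by_contra h7
    push Not at h7
    nlinarith
  -- the lift on the ball
  set h : (Fin d → ℂ) → V := fun v => γ (s v) + ∑ D ∈ 𝒟, lam' D v • c D with hh
  have hγs : ∀ v ∈ ball (0 : Fin d → ℂ) 1, DifferentiableAt ℂ (fun u => γ (s u)) v := fun v hv =>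
    (slice_fderiv (hs v hv).1 (hs v hv).2.1.2.2.2.1).1.differentiableAt hn'
  have hfd : ∀ v ∈ ball (0 : Fin d → ℂ) 1, HasFDerivAt h (fderiv ℂ (fun u => γ (s u)) v +
      ∑ D ∈ 𝒟, (fderiv ℂ (lam' D) v).smulRight (c D)) v := by
    intro v hv
    refine (hγs v hv).hasFDerivAt.add (HasFDerivAt.fun_sum fun D hD => ?_)
    exact ((hl1 D hD).differentiableAt (isOpen_ball.mem_nhds hv)).hasFDerivAt.smul_const (c D)
  have hhd : DifferentiableOn ℂ h (ball 0 1) := fun v hv =>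
    (hfd v hv).differentiableAt.differentiableWithinAt
  have hbound : ∀ v ∈ ball (0 : Fin d → ℂ) (1 / 2), ‖fderiv ℂ (fun u => G (h u)) v‖ ≤ B := by
    intro v hv
    have hv1 : v ∈ ball (0 : Fin d → ℂ) 1 := ball_subset_ball (by norm_num) hv
    have hsub : ball v (1 / 2) ⊆ ball (0 : Fin d → ℂ) 1 := by
      refine ball_subset_ball' ?_
      rw [mem_ball] at hv
      linarith
    have h1 : ‖fderiv ℂ (fun u => γ (s u)) v‖ ≤ 2 := by
      have h2 := MF.norm_fderiv_le_of_ball (f := fun u => γ (s u) - γ x) (half_pos one_pos)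
        (fun u hu => ((hγs u (hsub hu)).sub_const _).differentiableWithinAt)
        (fun u hu => (hs u (hsub hu)).2.1.2.2.1)
      have h3 : fderiv ℂ (fun u => γ (s u) - γ x) v = fderiv ℂ (fun u => γ (s u)) v :=
        fderiv_sub_const _
      rw [h3] at h2
      refine h2.trans (le_of_eq (by norm_num))
    have h4 : ‖fderiv ℂ h v‖ ≤ 2 + ∑ D ∈ 𝒟, ‖c D‖ := by
      rw [(hfd v hv1).fderiv]
      refine (norm_add_le _ _).trans (add_le_add h1 ((norm_sum_le _ _).trans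
        (Finset.sum_le_sum fun D hD => ?_)))
      rw [ContinuousLinearMap.norm_smulRight_apply]
      calc ‖fderiv ℂ (lam' D) v‖ * ‖c D‖ ≤ 1 * ‖c D‖ :=
            mul_le_mul_of_nonneg_right (hl3 D hD v hv1) (norm_nonneg _)
        _ = ‖c D‖ := one_mul _
    have h5 : fderiv ℂ (fun u => G (h u)) v = (G : V →L[ℂ] V).comp (fderiv ℂ h v) :=
      ((G : V →L[ℂ] V).hasFDerivAt.comp v (hfd v hv1).differentiableAt.hasFDerivAt).fderiv
    rw [h5]
    exact (ContinuousLinearMap.opNorm_comp_le _ _).trans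
      (mul_le_mul hGn h4 (norm_nonneg _) hCG0)
  have hval := hCb _ G hG h 0 (hhd.mono (ball_subset_ball (by norm_num))) hbound
  have hslc : SlG E f s 0 (s 0) P :=
    ⟨rfl, hs1, eventually_of_mem (isOpen_ball.mem_nhds h00) fun v hv => (hs v hv).2.2.1, hP⟩
  have hβh : (fun u => β (s u)) =ᶠ[𝓝 0] h := by
    have h1 : ∀ᶠ v in 𝓝 (0 : Fin d → ℂ), ∀ D ∈ 𝒟, lam' D v = ℓ D (s v) := by
      refine (Finset.eventually_all _).2 fun D hD => ?_
      refine log_unique ((hl1 D hD).differentiableAt (isOpen_ball.mem_nhds h00)).continuousAt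
        (ContinuousAt.comp (g := ℓ D) (hℓ D hD).1.continuousAt hs1.continuousAt) ?_ ?_
      · show lam D 0 - lam D 0 + ℓ D (s 0) = ℓ D (s 0)
        ring
      · filter_upwards [hs1.continuousAt.eventually (hℓ D hD).2, isOpen_ball.mem_nhds h00]
          with v h2 h3
        rw [hl2 D hD v h3, h2]
    filter_upwards [h1, hs1.continuousAt.eventually hβe, isOpen_ball.mem_nhds h00]
      with v h2 h3 h4
    show β (s v) = γ (s v) + ∑ D ∈ 𝒟, lam' D v • c D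
    rw [h3 (hs v h4).2.2.1]
    congr 1
    exact Finset.sum_congr rfl fun D hD => by rw [h2 D hD]
  rw [hΘ a _ β hβ s 0 P hslc, gvd_congr hT.toIsTerm hβh, norm_mul]
  exact mul_le_mul_of_nonneg_right hval (norm_nonneg _)

end Forms

end Vale.Agent.P281.H511.UL
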